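import Mathlib
import Vale.Agent.Lib.P335.Defs
import Vale.Agent.Lib.P335.helper26.BipDefs
import Vale.Agent.Lib.P335.helper26.Abstract

/-!
Graph-side keys for P335: `gkey S G` is the set of edges of `G` with no endpoint in `S`
(so conditioning on `gkey S` is conditioning on the induced graph `G - S`), together with
generic transfer lemmas for conditional expectations along an injective map onto a class.
-/

namespace Vale.Agent.Lib.P335.H75

open Finset
open scoped Classical
open Vale.Agent.Lib.P335 Vale.Agent.Lib.P335.Bip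

/-- The edges of `G` with no endpoint in `S`. -/
noncomputable def gkey {n : ℕ} (S : Finset (Fin n)) (G : SimpleGraph (Fin n)) :
    Finset (Sym2 (Fin n)) :=
  G.edgeFinset.filter (fun e => ∀ v ∈ e, v ∉ S)

theorem mk_mem_gkey {n : ℕ} (S : Finset (Fin n)) (G : SimpleGraph (Fin n)) (a b : Fin n) :
    s(a, b) ∈ gkey S G ↔ G.Adj a b ∧ a ∉ S ∧ b ∉ S := by
  unfold gkey
  rw [Finset.mem_filter, SimpleGraph.mem_edgeFinset, SimpleGraph.mem_edgeSet]
  constructor
  · rintro ⟨h1, h2⟩
    exact ⟨h1, h2 a (Sym2.mem_mk_left a b), h2 b (Sym2.mem_mk_right a b)⟩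
  · rintro ⟨h1, h2, h3⟩
    refine ⟨h1, fun v hv => ?_⟩
    rcases Sym2.mem_iff.1 hv with rfl | rfl
    · exact h2
    · exact h3

/-- Two graphs have the same key for `S` iff they have the same edges among the vertices
outside `S`. -/
theorem gkey_eq_iff {n : ℕ} (S : Finset (Fin n)) (G G' : SimpleGraph (Fin n)) :
    gkey S G = gkey S G' ↔ ∀ a b, a ∉ S → b ∉ S → (G.Adj a b ↔ G'.Adj a b) := by
  constructor
  · intro h a b ha hb
    have h1 := mk_mem_gkey S G a b
    have h2 := mk_mem_gkey S G' a b
    rw [h] at h1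
    constructor
    · intro hab
      exact (h2.1 (h1.2 ⟨hab, ha, hb⟩)).1
    · intro hab
      exact (h1.1 (h2.2 ⟨hab, ha, hb⟩)).1
  · intro h
    ext e
    induction e using Sym2.ind with
    | _ a b =>
      rw [mk_mem_gkey, mk_mem_gkey]
      constructor
      · rintro ⟨h1, h2, h3⟩
        exact ⟨(h a b h2 h3).1 h1, h2, h3⟩
      · rintro ⟨h1, h2, h3⟩
        exact ⟨(h a b h2 h3).2 h1, h2, h3⟩

/-- A larger removed set gives a coarser key. -/
theorem gkey_mono {n : ℕ} {S S' : Finset (Fin n)} (hS : S ⊆ S') {G G' : SimpleGraph (Fin n)}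
    (h : gkey S G = gkey S G') : gkey S' G = gkey S' G' := by
  rw [gkey_eq_iff] at h ⊢
  intro a b ha hb
  exact h a b (fun h' => ha (hS h')) (fun h' => hb (hS h'))

/-- Conditional expectations only depend on the fibres of the key. -/
theorem cexp_congr_ker {Ω K K' : Type*} [Fintype Ω] [DecidableEq K] [DecidableEq K']
    (κ : Ω → K) (κ' : Ω → K') (h : ∀ x y, κ x = κ y ↔ κ' x = κ' y) : cexp κ = cexp κ' := by
  apply LinearMap.ext
  intro f
  funext x
  rw [cexp_apply, cexp_apply]
  have e : univ.filter (fun y => κ y = κ x) = univ.filter (fun y => κ' y = κ' x) := by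
    ext y
    simp only [Finset.mem_filter, Finset.mem_univ, true_and]
    exact h y x
  rw [e]

/-- Transfer of a conditional expectation along an injective map onto a union of fibres. -/
theorem cexp_transfer {Ω Ω' K K' : Type*} [Fintype Ω] [Fintype Ω'] [DecidableEq K]
    [DecidableEq K'] (κ : Ω → K) (κ' : Ω' → K') (ι : Ω' → Ω) (hinj : Function.Injective ι)
    (hsur : ∀ z (y : Ω), κ y = κ (ι z) → ∃ z', ι z' = y)
    (hiff : ∀ z z', κ (ι z) = κ (ι z') ↔ κ' z = κ' z') (f : Ω → ℝ) (z : Ω') :
    cexp κ f (ι z) = cexp κ' (fun z' => f (ι z')) z := by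
  rw [cexp_apply, cexp_apply]
  have e : univ.filter (fun y => κ y = κ (ι z))
      = (univ.filter (fun z' => κ' z' = κ' z)).image ι := by
    ext y
    simp only [Finset.mem_filter, Finset.mem_univ, true_and, Finset.mem_image]
    constructor
    · intro hy
      obtain ⟨z', rfl⟩ := hsur z y hy
      exact ⟨z', (hiff z' z).1 hy, rfl⟩
    · rintro ⟨z', hz', rfl⟩
      exact (hiff z' z).2 hz'
  rw [e, Finset.sum_image (fun a _ b _ hab => hinj hab),
    Finset.card_image_of_injective _ hinj]

/-- An inequality between sums over a finite type follows from the inequalities between the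
sums over the fibres of a key. -/
theorem sum_le_sum_of_fibres {Ω K : Type*} [Fintype Ω] [DecidableEq K] (κ : Ω → K)
    (H1 H2 : Ω → ℝ)
    (h : ∀ x0 : Ω, ∑ y ∈ univ.filter (fun y => κ y = κ x0), H1 y
        ≤ ∑ y ∈ univ.filter (fun y => κ y = κ x0), H2 y) :
    ∑ x, H1 x ≤ ∑ x, H2 x := by
  have hmaps : ∀ x ∈ (univ : Finset Ω), κ x ∈ univ.image κ :=
    fun x _ => mem_image_of_mem _ (mem_univ x)
  rw [← Finset.sum_fiberwise_of_maps_to hmaps H1, ← Finset.sum_fiberwise_of_maps_to hmaps H2]
  apply Finset.sum_le_sum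
  intro μ hμ
  obtain ⟨x0, -, rfl⟩ := mem_image.mp hμ
  exact h x0

end Vale.Agent.Lib.P335.H75
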