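import Mathlib
import Vale.Agent.Lib.P335.helper75.GraphKey

/-!
Graph triples for P335, part 1: the matrix of a graph relative to a vertex triple.
For a triple `T = {φ 0, φ 1, φ 2}` and a graph `G`, row `a` of the matrix consists of the
neighbours of `φ a` outside `T`, plus the virtual column `φ 0` when `φ a` has an internal
neighbour while the two other vertices of `T` are not adjacent.
-/

namespace Vale.Agent.Lib.P335.H75

open Finset
open scoped Classical
open Vale.Agent.Lib.P335 Vale.Agent.Lib.P335.Bip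

variable {n : ℕ}

/-- The vertex triple. -/
def TT (φ : Fin 3 ↪ Fin n) : Finset (Fin n) := univ.map φ

theorem mem_TT (φ : Fin 3 ↪ Fin n) (v : Fin n) : v ∈ TT φ ↔ ∃ a, φ a = v := by
  simp [TT]

theorem phi_mem_TT (φ : Fin 3 ↪ Fin n) (a : Fin 3) : φ a ∈ TT φ := (mem_TT φ _).2 ⟨a, rfl⟩

/-- Virtual membership: `φ a` has a neighbour inside the triple and the two other vertices of
the triple are not adjacent. -/
def vmem (φ : Fin 3 ↪ Fin n) (G : SimpleGraph (Fin n)) (a : Fin 3) : Prop :=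
  (G.Adj (φ a) (φ (a + 1)) ∨ G.Adj (φ a) (φ (a + 2))) ∧ ¬ G.Adj (φ (a + 1)) (φ (a + 2))

/-- The number of edges inside the triple. -/
noncomputable def ecount (φ : Fin 3 ↪ Fin n) (G : SimpleGraph (Fin n)) : ℕ :=
  (if G.Adj (φ 0) (φ 1) then 1 else 0) + (if G.Adj (φ 0) (φ 2) then 1 else 0)
    + (if G.Adj (φ 1) (φ 2) then 1 else 0)

/-- The internal degree of `φ a`. -/
noncomputable def kdeg (φ : Fin 3 ↪ Fin n) (G : SimpleGraph (Fin n)) (a : Fin 3) : ℕ :=
  (if G.Adj (φ a) (φ (a + 1)) then 1 else 0) + (if G.Adj (φ a) (φ (a + 2)) then 1 else 0)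

theorem fin3_add : ((0 : Fin 3) + 1 = 1) ∧ ((0 : Fin 3) + 2 = 2) ∧ ((1 : Fin 3) + 1 = 2) ∧
    ((1 : Fin 3) + 2 = 0) ∧ ((2 : Fin 3) + 1 = 0) ∧ ((2 : Fin 3) + 2 = 1) := by decide

/-- internal degree = virtual membership + (number of internal edges - 1) -/
theorem kdeg_eq (φ : Fin 3 ↪ Fin n) (G : SimpleGraph (Fin n)) (a : Fin 3) :
    kdeg φ G a = (if vmem φ G a then 1 else 0) + (ecount φ G - 1) := by
  have h10 : G.Adj (φ 1) (φ 0) ↔ G.Adj (φ 0) (φ 1) := G.adj_comm _ _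
  have h20 : G.Adj (φ 2) (φ 0) ↔ G.Adj (φ 0) (φ 2) := G.adj_comm _ _
  have h21 : G.Adj (φ 2) (φ 1) ↔ G.Adj (φ 1) (φ 2) := G.adj_comm _ _
  obtain ⟨e1, e2, e3, e4, e5, e6⟩ := fin3_add
  unfold kdeg vmem ecount
  fin_cases a
  · simp only [Fin.zero_eta, e1, e2]
    by_cases hA : G.Adj (φ 0) (φ 1) <;> by_cases hB : G.Adj (φ 0) (φ 2) <;>
      by_cases hC : G.Adj (φ 1) (φ 2) <;> simp [hA, hB, hC]
  · simp only [Fin.mk_one, e3, e4, h10, h20]
    by_cases hA : G.Adj (φ 0) (φ 1) <;> by_cases hB : G.Adj (φ 0) (φ 2) <;>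
      by_cases hC : G.Adj (φ 1) (φ 2) <;> simp [hA, hB, hC]
  · simp only [Fin.reduceFinMk, e5, e6, h20, h21]
    by_cases hA : G.Adj (φ 0) (φ 1) <;> by_cases hB : G.Adj (φ 0) (φ 2) <;>
      by_cases hC : G.Adj (φ 1) (φ 2) <;> simp [hA, hB, hC]

/-- the sum of the internal degrees is twice the number of internal edges -/
theorem sum_kdeg (φ : Fin 3 ↪ Fin n) (G : SimpleGraph (Fin n)) :
    ∑ a, kdeg φ G a = 2 * ecount φ G := by
  have h10 : G.Adj (φ 1) (φ 0) ↔ G.Adj (φ 0) (φ 1) := G.adj_comm _ _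
  have h20 : G.Adj (φ 2) (φ 0) ↔ G.Adj (φ 0) (φ 2) := G.adj_comm _ _
  have h21 : G.Adj (φ 2) (φ 1) ↔ G.Adj (φ 1) (φ 2) := G.adj_comm _ _
  obtain ⟨e1, e2, e3, e4, e5, e6⟩ := fin3_add
  rw [Fin.sum_univ_three]
  unfold kdeg ecount
  simp only [e1, e2, e3, e4, e5, e6, h10, h20, h21]
  ring

/-- The neighbours of `φ a` outside the triple. -/
noncomputable def outN (φ : Fin 3 ↪ Fin n) (G : SimpleGraph (Fin n)) (a : Fin 3) :
    Finset (Fin n) :=
  univ.filter (fun o => o ∉ TT φ ∧ G.Adj (φ a) o)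

theorem mem_outN (φ : Fin 3 ↪ Fin n) (G : SimpleGraph (Fin n)) (a : Fin 3) (o : Fin n) :
    o ∈ outN φ G a ↔ o ∉ TT φ ∧ G.Adj (φ a) o := by
  simp [outN]

/-- The matrix of a graph relative to the triple. -/
noncomputable def toMat (φ : Fin 3 ↪ Fin n) (G : SimpleGraph (Fin n)) : Mat 3 n :=
  fun a => outN φ G a ∪ (if vmem φ G a then {φ 0} else ∅)

theorem mem_toMat (φ : Fin 3 ↪ Fin n) (G : SimpleGraph (Fin n)) (a : Fin 3) (o : Fin n) :
    o ∈ toMat φ G a ↔ (o ∉ TT φ ∧ G.Adj (φ a) o) ∨ (vmem φ G a ∧ o = φ 0) := by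
  unfold toMat
  rw [Finset.mem_union, mem_outN]
  by_cases h : vmem φ G a
  · simp [h]
  · simp [h]

theorem mem_toMat_of_not_mem (φ : Fin 3 ↪ Fin n) (G : SimpleGraph (Fin n)) (a : Fin 3)
    {o : Fin n} (ho : o ∉ TT φ) : o ∈ toMat φ G a ↔ G.Adj (φ a) o := by
  rw [mem_toMat]
  constructor
  · rintro (h | ⟨-, h⟩)
    · exact h.2
    · exact absurd (h ▸ phi_mem_TT φ 0) ho
  · intro h
    exact Or.inl ⟨ho, h⟩

theorem phi0_mem_toMat (φ : Fin 3 ↪ Fin n) (G : SimpleGraph (Fin n)) (a : Fin 3) :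
    φ 0 ∈ toMat φ G a ↔ vmem φ G a := by
  rw [mem_toMat]
  constructor
  · rintro (h | ⟨h, -⟩)
    · exact absurd (phi_mem_TT φ 0) h.1
    · exact h
  · intro h
    exact Or.inr ⟨h, rfl⟩

theorem phi_not_mem_toMat (φ : Fin 3 ↪ Fin n) (G : SimpleGraph (Fin n)) (a b : Fin 3)
    (hb : b ≠ 0) : φ b ∉ toMat φ G a := by
  rw [mem_toMat]
  rintro (h | ⟨-, h⟩)
  · exact h.1 (phi_mem_TT φ b)
  · exact hb (φ.injective h)

/-- the row cardinality of the matrix of a graph -/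
theorem card_toMat (φ : Fin 3 ↪ Fin n) (G : SimpleGraph (Fin n)) (a : Fin 3) :
    (toMat φ G a).card = (outN φ G a).card + (if vmem φ G a then 1 else 0) := by
  unfold toMat
  by_cases h : vmem φ G a
  · rw [if_pos h, if_pos h, Finset.card_union_of_disjoint, Finset.card_singleton]
    rw [Finset.disjoint_singleton_right, mem_outN]
    exact fun h' => h'.1 (phi_mem_TT φ 0)
  · rw [if_neg h, if_neg h, Finset.union_empty, add_zero]

/-- the degree of a vertex of the triple: internal degree plus outside neighbours -/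
theorem degree_phi (φ : Fin 3 ↪ Fin n) (G : SimpleGraph (Fin n)) (a : Fin 3) :
    G.degree (φ a) = kdeg φ G a + (outN φ G a).card := by
  rw [← SimpleGraph.card_neighborFinset_eq_degree]
  have hsplit : G.neighborFinset (φ a)
      = (univ.filter (fun o => o ∈ TT φ ∧ G.Adj (φ a) o)) ∪ outN φ G a := by
    ext o
    rw [SimpleGraph.mem_neighborFinset, Finset.mem_union, mem_outN, Finset.mem_filter]
    by_cases ho : o ∈ TT φ
    · simp [ho]
    · simp [ho]
  have hdisj : Disjoint (univ.filter (fun o => o ∈ TT φ ∧ G.Adj (φ a) o)) (outN φ G a) := by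
    rw [Finset.disjoint_left]
    intro o h1 h2
    rw [Finset.mem_filter] at h1
    rw [mem_outN] at h2
    exact h2.1 h1.2.1
  rw [hsplit, Finset.card_union_of_disjoint hdisj]
  congr 1
  have himg : univ.filter (fun o => o ∈ TT φ ∧ G.Adj (φ a) o)
      = (univ.filter (fun b : Fin 3 => G.Adj (φ a) (φ b))).map φ := by
    ext o
    rw [Finset.mem_filter, Finset.mem_map]
    constructor
    · rintro ⟨-, ho, hadj⟩
      obtain ⟨b, rfl⟩ := (mem_TT φ o).1 ho
      exact ⟨b, by simp [hadj], rfl⟩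
    · rintro ⟨b, hb, rfl⟩
      rw [Finset.mem_filter] at hb
      exact ⟨Finset.mem_univ _, phi_mem_TT φ b, hb.2⟩
  rw [himg, Finset.card_map, Finset.card_filter, Fin.sum_univ_three]
  have h10 : G.Adj (φ 1) (φ 0) ↔ G.Adj (φ 0) (φ 1) := G.adj_comm _ _
  have h20 : G.Adj (φ 2) (φ 0) ↔ G.Adj (φ 0) (φ 2) := G.adj_comm _ _
  have h21 : G.Adj (φ 2) (φ 1) ↔ G.Adj (φ 1) (φ 2) := G.adj_comm _ _
  obtain ⟨e1, e2, e3, e4, e5, e6⟩ := fin3_add
  unfold kdeg
  fin_cases a
  · simp only [Fin.zero_eta, e1, e2, SimpleGraph.irrefl, if_false, zero_add]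
  · simp only [Fin.mk_one, e3, e4, h10, SimpleGraph.irrefl, if_false, add_zero]
    ring
  · simp only [Fin.reduceFinMk, e5, e6, h20, h21, SimpleGraph.irrefl, if_false, add_zero]

/-- row cardinality in terms of the degree and the number of internal edges -/
theorem card_toMat_add (φ : Fin 3 ↪ Fin n) (G : SimpleGraph (Fin n)) (a : Fin 3) :
    (toMat φ G a).card + (ecount φ G - 1) = G.degree (φ a) := by
  rw [card_toMat, degree_phi, kdeg_eq]
  ring

end Vale.Agent.Lib.P335.H75
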