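import Mathlib
import Vale.Agent.Lib.P335.helper75.TripleMat

/-!
Graph triples for P335, part 2: margins of the matrix of a graph relative to a vertex triple
are constant on each class of graphs with the same edges outside the triple.
-/

namespace Vale.Agent.Lib.P335.H75

open Finset
open scoped Classical
open Vale.Agent.Lib.P335 Vale.Agent.Lib.P335.Bip

variable {n : ℕ}

theorem colSum_toMat_out (φ : Fin 3 ↪ Fin n) (G : SimpleGraph (Fin n)) {o : Fin n}
    (ho : o ∉ TT φ) :
    colSum (toMat φ G) o = (univ.filter (fun a : Fin 3 => G.Adj (φ a) o)).card := by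
  unfold colSum
  congr 1
  ext a
  simp only [Finset.mem_filter, Finset.mem_univ, true_and]
  exact mem_toMat_of_not_mem φ G a ho

theorem colSum_toMat_phi0 (φ : Fin 3 ↪ Fin n) (G : SimpleGraph (Fin n)) :
    colSum (toMat φ G) (φ 0) = (univ.filter (fun a : Fin 3 => vmem φ G a)).card := by
  unfold colSum
  congr 1
  ext a
  simp only [Finset.mem_filter, Finset.mem_univ, true_and]
  exact phi0_mem_toMat φ G a

theorem colSum_toMat_phi (φ : Fin 3 ↪ Fin n) (G : SimpleGraph (Fin n)) (b : Fin 3)
    (hb : b ≠ 0) : colSum (toMat φ G) (φ b) = 0 := by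
  unfold colSum
  rw [Finset.card_eq_zero, Finset.filter_eq_empty_iff]
  intro a _
  exact phi_not_mem_toMat φ G a b hb

/-- the number of virtual members is determined by the number of internal edges -/
theorem vcount_add (φ : Fin 3 ↪ Fin n) (G : SimpleGraph (Fin n)) :
    (univ.filter (fun a : Fin 3 => vmem φ G a)).card + 3 * (ecount φ G - 1)
      = 2 * ecount φ G := by
  rw [← sum_kdeg φ G, Finset.card_filter]
  have h : ∀ a : Fin 3, kdeg φ G a = (if vmem φ G a then 1 else 0) + (ecount φ G - 1) :=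
    kdeg_eq φ G
  simp only [h]
  rw [Finset.sum_add_distrib, Finset.sum_const, Finset.card_univ, Fintype.card_fin,
    smul_eq_mul]

/-- the degree of a vertex outside the triple -/
theorem degree_out (φ : Fin 3 ↪ Fin n) (G : SimpleGraph (Fin n)) {o : Fin n}
    (ho : o ∉ TT φ) :
    G.degree o = colSum (toMat φ G) o
      + (univ.filter (fun w => w ∉ TT φ ∧ G.Adj o w)).card := by
  rw [← SimpleGraph.card_neighborFinset_eq_degree, colSum_toMat_out φ G ho]
  have hsplit : G.neighborFinset o
      = (univ.filter (fun a : Fin 3 => G.Adj (φ a) o)).map φ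
        ∪ univ.filter (fun w => w ∉ TT φ ∧ G.Adj o w) := by
    ext w
    rw [SimpleGraph.mem_neighborFinset, Finset.mem_union, Finset.mem_map, Finset.mem_filter]
    constructor
    · intro h
      by_cases hw : w ∈ TT φ
      · obtain ⟨b, rfl⟩ := (mem_TT φ w).1 hw
        exact Or.inl ⟨b, by simp [h.symm], rfl⟩
      · exact Or.inr ⟨Finset.mem_univ _, hw, h⟩
    · rintro (⟨b, hb, rfl⟩ | ⟨-, -, h⟩)
      · rw [Finset.mem_filter] at hb
        exact hb.2.symm
      · exact h
  have hdisj : Disjoint ((univ.filter (fun a : Fin 3 => G.Adj (φ a) o)).map φ)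
      (univ.filter (fun w => w ∉ TT φ ∧ G.Adj o w)) := by
    rw [Finset.disjoint_left]
    intro w h1 h2
    rw [Finset.mem_map] at h1
    rw [Finset.mem_filter] at h2
    obtain ⟨b, -, rfl⟩ := h1
    exact h2.2.1 (phi_mem_TT φ b)
  rw [hsplit, Finset.card_union_of_disjoint hdisj, Finset.card_map]

/-- double counting of the edges between the triple and the other vertices -/
theorem sum_outN (φ : Fin 3 ↪ Fin n) (G : SimpleGraph (Fin n)) :
    ∑ a, (outN φ G a).card = ∑ o ∈ (TT φ)ᶜ, colSum (toMat φ G) o := by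
  have h1 : ∀ a : Fin 3, (outN φ G a).card
      = ∑ o ∈ (TT φ)ᶜ, if G.Adj (φ a) o then 1 else 0 := by
    intro a
    rw [← Finset.card_filter]
    congr 1
    ext o
    rw [mem_outN, Finset.mem_filter, Finset.mem_compl]
  have h2 : ∀ o ∈ (TT φ)ᶜ, colSum (toMat φ G) o
      = ∑ a : Fin 3, if G.Adj (φ a) o then 1 else 0 := by
    intro o ho
    rw [colSum_toMat_out φ G (Finset.mem_compl.1 ho), Finset.card_filter]
  simp only [h1]
  rw [Finset.sum_comm]
  exact Finset.sum_congr rfl (fun o ho => (h2 o ho).symm)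

variable {d : Fin n → ℕ}

/-- column sums outside the triple are constant on a class -/
theorem colSum_out_eq_of_class (φ : Fin 3 ↪ Fin n) (G G' : Omega n d)
    (h : gkey (TT φ) G.1 = gkey (TT φ) G'.1) {o : Fin n} (ho : o ∉ TT φ) :
    colSum (toMat φ G.1) o = colSum (toMat φ G'.1) o := by
  have h1 := degree_out φ G.1 ho
  have h2 := degree_out φ G'.1 ho
  rw [G.2 o] at h1
  rw [G'.2 o] at h2
  have e : univ.filter (fun w => w ∉ TT φ ∧ G.1.Adj o w)
      = univ.filter (fun w => w ∉ TT φ ∧ G'.1.Adj o w) := by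
    ext w
    simp only [Finset.mem_filter, Finset.mem_univ, true_and]
    constructor
    · rintro ⟨hw, hadj⟩
      exact ⟨hw, ((gkey_eq_iff _ _ _).1 h o w ho hw).1 hadj⟩
    · rintro ⟨hw, hadj⟩
      exact ⟨hw, ((gkey_eq_iff _ _ _).1 h o w ho hw).2 hadj⟩
  rw [e] at h1
  omega

/-- the number of internal edges is constant on a class -/
theorem ecount_eq_of_class (φ : Fin 3 ↪ Fin n) (G G' : Omega n d)
    (h : gkey (TT φ) G.1 = gkey (TT φ) G'.1) : ecount φ G.1 = ecount φ G'.1 := by
  have hsum : ∀ H : Omega n d, ∑ a, d (φ a)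
      = 2 * ecount φ H.1 + ∑ o ∈ (TT φ)ᶜ, colSum (toMat φ H.1) o := by
    intro H
    rw [← sum_kdeg, ← sum_outN, ← Finset.sum_add_distrib]
    refine Finset.sum_congr rfl (fun a _ => ?_)
    rw [← H.2 (φ a), degree_phi]
  have h1 := hsum G
  have h2 := hsum G'
  have e : ∑ o ∈ (TT φ)ᶜ, colSum (toMat φ G.1) o = ∑ o ∈ (TT φ)ᶜ, colSum (toMat φ G'.1) o :=
    Finset.sum_congr rfl
      (fun o ho => colSum_out_eq_of_class φ G G' h (Finset.mem_compl.1 ho))
  rw [e] at h1
  omega

/-- row sums of the matrix are constant on a class -/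
theorem card_toMat_eq_of_class (φ : Fin 3 ↪ Fin n) (G G' : Omega n d)
    (h : gkey (TT φ) G.1 = gkey (TT φ) G'.1) (a : Fin 3) :
    (toMat φ G.1 a).card = (toMat φ G'.1 a).card := by
  have h1 := card_toMat_add φ G.1 a
  have h2 := card_toMat_add φ G'.1 a
  rw [G.2] at h1
  rw [G'.2] at h2
  rw [ecount_eq_of_class φ G G' h] at h1
  omega

/-- column sums of the matrix are constant on a class -/
theorem colSum_toMat_eq_of_class (φ : Fin 3 ↪ Fin n) (G G' : Omega n d)
    (h : gkey (TT φ) G.1 = gkey (TT φ) G'.1) (j : Fin n) :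
    colSum (toMat φ G.1) j = colSum (toMat φ G'.1) j := by
  by_cases hj : j ∈ TT φ
  · obtain ⟨b, rfl⟩ := (mem_TT φ j).1 hj
    by_cases hb : b = 0
    · subst hb
      rw [colSum_toMat_phi0, colSum_toMat_phi0]
      have h1 := vcount_add φ G.1
      have h2 := vcount_add φ G'.1
      rw [ecount_eq_of_class φ G G' h] at h1
      omega
    · rw [colSum_toMat_phi φ _ b hb, colSum_toMat_phi φ _ b hb]
  · exact colSum_out_eq_of_class φ G G' h hj

end Vale.Agent.Lib.P335.H75
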