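import Mathlib
import Vale.Agent.Lib.P335.helper75.TripleCount

/-!
Graph triples for P335, part 3: the graph of a matrix relative to a vertex triple and a base
graph (the inverse of `toMat` on a class).
-/

namespace Vale.Agent.Lib.P335.H75

open Finset
open scoped Classical
open Vale.Agent.Lib.P335 Vale.Agent.Lib.P335.Bip

variable {n : ℕ}

/-- Internal adjacency decoded from the virtual column: the two vertices other than `c` are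
adjacent iff there is an internal edge at all and `c` is not a virtual member. -/
def intl (φ : Fin 3 ↪ Fin n) (e0 : ℕ) (z : Mat 3 n) (x y : Fin 3) : Prop :=
  ∃ c : Fin 3, ((x = c + 1 ∧ y = c + 2) ∨ (x = c + 2 ∧ y = c + 1)) ∧ e0 ≠ 0 ∧ φ 0 ∉ z c

theorem intl_symm (φ : Fin 3 ↪ Fin n) (e0 : ℕ) (z : Mat 3 n) (x y : Fin 3)
    (h : intl φ e0 z x y) : intl φ e0 z y x := by
  obtain ⟨c, hc, h1, h2⟩ := h
  rcases hc with ⟨hx, hy⟩ | ⟨hx, hy⟩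
  · exact ⟨c, Or.inr ⟨hy, hx⟩, h1, h2⟩
  · exact ⟨c, Or.inl ⟨hy, hx⟩, h1, h2⟩

theorem fin3_third : ∀ c c' : Fin 3,
    (c + 1 = c' + 1 ∧ c + 2 = c' + 2 ∨ c + 1 = c' + 2 ∧ c + 2 = c' + 1) → c' = c := by
  decide

theorem fin3_ne : ∀ x c : Fin 3, ¬ ((x = c + 1 ∧ x = c + 2) ∨ (x = c + 2 ∧ x = c + 1)) := by
  decide

theorem intl_irrefl (φ : Fin 3 ↪ Fin n) (e0 : ℕ) (z : Mat 3 n) (x : Fin 3) :
    ¬ intl φ e0 z x x := by
  rintro ⟨c, hc, -, -⟩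
  exact fin3_ne x c hc

theorem intl_succ (φ : Fin 3 ↪ Fin n) (e0 : ℕ) (z : Mat 3 n) (c : Fin 3) :
    intl φ e0 z (c + 1) (c + 2) ↔ e0 ≠ 0 ∧ φ 0 ∉ z c := by
  constructor
  · rintro ⟨c', hc, h1, h2⟩
    have hcc : c' = c := fin3_third c c' hc
    subst hcc
    exact ⟨h1, h2⟩
  · rintro ⟨h1, h2⟩
    exact ⟨c, Or.inl ⟨rfl, rfl⟩, h1, h2⟩

/-- The graph of a matrix relative to the triple and a base graph. -/
def toGraph (φ : Fin 3 ↪ Fin n) (G0 : SimpleGraph (Fin n)) (e0 : ℕ) (z : Mat 3 n) :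
    SimpleGraph (Fin n) where
  Adj u w := (u ∉ TT φ ∧ w ∉ TT φ ∧ G0.Adj u w) ∨ (∃ a, u = φ a ∧ w ∉ TT φ ∧ w ∈ z a) ∨
    (∃ a, w = φ a ∧ u ∉ TT φ ∧ u ∈ z a) ∨ (∃ a b, u = φ a ∧ w = φ b ∧ intl φ e0 z a b)
  symm := ⟨by
    rintro u w (⟨h1, h2, h3⟩ | ⟨a, h1, h2, h3⟩ | ⟨a, h1, h2, h3⟩ | ⟨a, b, h1, h2, h3⟩)
    · exact Or.inl ⟨h2, h1, h3.symm⟩
    · exact Or.inr (Or.inr (Or.inl ⟨a, h1, h2, h3⟩))
    · exact Or.inr (Or.inl ⟨a, h1, h2, h3⟩)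
    · exact Or.inr (Or.inr (Or.inr ⟨b, a, h2, h1, intl_symm φ e0 z a b h3⟩))⟩
  loopless := ⟨by
    rintro u (⟨h1, h2, h3⟩ | ⟨a, h1, h2, h3⟩ | ⟨a, h1, h2, h3⟩ | ⟨a, b, h1, h2, h3⟩)
    · exact G0.irrefl h3
    · exact h2 (h1 ▸ phi_mem_TT φ a)
    · exact h2 (h1 ▸ phi_mem_TT φ a)
    · have hab : a = b := φ.injective (h1.symm.trans h2)
      subst hab
      exact intl_irrefl φ e0 z a h3⟩

theorem toGraph_adj_out (φ : Fin 3 ↪ Fin n) (G0 : SimpleGraph (Fin n)) (e0 : ℕ) (z : Mat 3 n)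
    {u w : Fin n} (hu : u ∉ TT φ) (hw : w ∉ TT φ) :
    (toGraph φ G0 e0 z).Adj u w ↔ G0.Adj u w := by
  constructor
  · rintro (⟨h1, h2, h3⟩ | ⟨a, h1, h2, h3⟩ | ⟨a, h1, h2, h3⟩ | ⟨a, b, h1, h2, h3⟩)
    · exact h3
    · exact absurd (h1 ▸ phi_mem_TT φ a) hu
    · exact absurd (h1 ▸ phi_mem_TT φ a) hw
    · exact absurd (h1 ▸ phi_mem_TT φ a) hu
  · intro h
    exact Or.inl ⟨hu, hw, h⟩

theorem toGraph_adj_phi_out (φ : Fin 3 ↪ Fin n) (G0 : SimpleGraph (Fin n)) (e0 : ℕ)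
    (z : Mat 3 n) (a : Fin 3) {w : Fin n} (hw : w ∉ TT φ) :
    (toGraph φ G0 e0 z).Adj (φ a) w ↔ w ∈ z a := by
  constructor
  · rintro (⟨h1, h2, h3⟩ | ⟨a', h1, h2, h3⟩ | ⟨a', h1, h2, h3⟩ | ⟨a', b, h1, h2, h3⟩)
    · exact absurd (phi_mem_TT φ a) h1
    · have : a = a' := φ.injective h1
      subst this
      exact h3
    · exact absurd (h1 ▸ phi_mem_TT φ a') hw
    · exact absurd (h2 ▸ phi_mem_TT φ b) hw
  · intro h
    exact Or.inr (Or.inl ⟨a, rfl, hw, h⟩)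

theorem toGraph_adj_phi_phi (φ : Fin 3 ↪ Fin n) (G0 : SimpleGraph (Fin n)) (e0 : ℕ)
    (z : Mat 3 n) (a b : Fin 3) :
    (toGraph φ G0 e0 z).Adj (φ a) (φ b) ↔ intl φ e0 z a b := by
  constructor
  · rintro (⟨h1, h2, h3⟩ | ⟨a', h1, h2, h3⟩ | ⟨a', h1, h2, h3⟩ | ⟨a', b', h1, h2, h3⟩)
    · exact absurd (phi_mem_TT φ a) h1
    · exact absurd (phi_mem_TT φ b) h2
    · exact absurd (phi_mem_TT φ a) h2
    · have h1' : a = a' := φ.injective h1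
      have h2' : b = b' := φ.injective h2
      subst h1' h2'
      exact h3
  · intro h
    exact Or.inr (Or.inr (Or.inr ⟨a, b, rfl, rfl, h⟩))

/-- the key of the graph of a matrix is the key of the base graph -/
theorem gkey_toGraph (φ : Fin 3 ↪ Fin n) (G0 : SimpleGraph (Fin n)) (e0 : ℕ) (z : Mat 3 n) :
    gkey (TT φ) (toGraph φ G0 e0 z) = gkey (TT φ) G0 := by
  rw [gkey_eq_iff]
  intro a b ha hb
  exact toGraph_adj_out φ G0 e0 z ha hb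

end Vale.Agent.Lib.P335.H75
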