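import Mathlib
import Vale.Agent.Lib.P335.helper75.TripleGraph

/-!
Graph triples for P335, part 4: the two round trips between graphs of a class and matrices.
-/

namespace Vale.Agent.Lib.P335.H75

open Finset
open scoped Classical
open Vale.Agent.Lib.P335 Vale.Agent.Lib.P335.Bip

variable {n : ℕ}

theorem fin3_forall {P : Fin 3 → Prop} (h0 : P 0) (h1 : P 1) (h2 : P 2) (a : Fin 3) : P a := by
  fin_cases a
  · exact h0
  · exact h1
  · exact h2

theorem fin3_exists_third : ∀ a b : Fin 3, a ≠ b →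
    ∃ c : Fin 3, (a = c + 1 ∧ b = c + 2) ∨ (a = c + 2 ∧ b = c + 1) := by
  decide

/-- In any graph, the two vertices of the triple other than `φ c` are adjacent iff there is an
internal edge and `c` is not a virtual member. -/
theorem adj_succ_iff (φ : Fin 3 ↪ Fin n) (G : SimpleGraph (Fin n)) (c : Fin 3) :
    G.Adj (φ (c + 1)) (φ (c + 2)) ↔ ecount φ G ≠ 0 ∧ ¬ vmem φ G c := by
  have h10 : G.Adj (φ 1) (φ 0) ↔ G.Adj (φ 0) (φ 1) := G.adj_comm _ _
  have h20 : G.Adj (φ 2) (φ 0) ↔ G.Adj (φ 0) (φ 2) := G.adj_comm _ _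
  have h21 : G.Adj (φ 2) (φ 1) ↔ G.Adj (φ 1) (φ 2) := G.adj_comm _ _
  obtain ⟨e1, e2, e3, e4, e5, e6⟩ := fin3_add
  revert c
  apply fin3_forall
  · unfold vmem ecount
    simp only [e1, e2]
    by_cases hA : G.Adj (φ 0) (φ 1) <;> by_cases hB : G.Adj (φ 0) (φ 2) <;>
      by_cases hC : G.Adj (φ 1) (φ 2) <;> simp [hA, hB, hC]
  · unfold vmem ecount
    simp only [e3, e4, h10, h20]
    by_cases hA : G.Adj (φ 0) (φ 1) <;> by_cases hB : G.Adj (φ 0) (φ 2) <;>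
      by_cases hC : G.Adj (φ 1) (φ 2) <;> simp [hA, hB, hC]
  · unfold vmem ecount
    simp only [e5, e6, h20, h21]
    by_cases hA : G.Adj (φ 0) (φ 1) <;> by_cases hB : G.Adj (φ 0) (φ 2) <;>
      by_cases hC : G.Adj (φ 1) (φ 2) <;> simp [hA, hB, hC]

/-- decoding the internal edges of a graph from its matrix -/
theorem intl_toMat (φ : Fin 3 ↪ Fin n) (G : SimpleGraph (Fin n)) (a b : Fin 3) :
    intl φ (ecount φ G) (toMat φ G) a b ↔ G.Adj (φ a) (φ b) := by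
  constructor
  · rintro ⟨c, hc, h1, h2⟩
    rw [phi0_mem_toMat] at h2
    have h := (adj_succ_iff φ G c).2 ⟨h1, h2⟩
    rcases hc with ⟨hx, hy⟩ | ⟨hx, hy⟩
    · rw [hx, hy]
      exact h
    · rw [hx, hy]
      exact h.symm
  · intro h
    have hab : a ≠ b := by
      rintro rfl
      exact G.irrefl h
    obtain ⟨c, hc⟩ := fin3_exists_third a b hab
    have h' : G.Adj (φ (c + 1)) (φ (c + 2)) := by
      rcases hc with ⟨hx, hy⟩ | ⟨hx, hy⟩
      · rw [← hx, ← hy]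
        exact h
      · rw [← hx, ← hy]
        exact h.symm
    obtain ⟨h1, h2⟩ := (adj_succ_iff φ G c).1 h'
    refine ⟨c, hc, h1, ?_⟩
    rw [phi0_mem_toMat]
    exact h2

/-- Round trip 1: a graph is recovered from its matrix and the part outside the triple. -/
theorem toGraph_toMat (φ : Fin 3 ↪ Fin n) (G G0 : SimpleGraph (Fin n))
    (h : gkey (TT φ) G = gkey (TT φ) G0) :
    toGraph φ G0 (ecount φ G) (toMat φ G) = G := by
  ext u w
  by_cases hu : u ∈ TT φ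
  · obtain ⟨a, rfl⟩ := (mem_TT φ u).1 hu
    by_cases hw : w ∈ TT φ
    · obtain ⟨b, rfl⟩ := (mem_TT φ w).1 hw
      rw [toGraph_adj_phi_phi, intl_toMat]
    · rw [toGraph_adj_phi_out φ G0 _ _ a hw, mem_toMat_of_not_mem φ G a hw]
  · by_cases hw : w ∈ TT φ
    · obtain ⟨b, rfl⟩ := (mem_TT φ w).1 hw
      rw [SimpleGraph.adj_comm, toGraph_adj_phi_out φ G0 _ _ b hu,
        mem_toMat_of_not_mem φ G b hu, SimpleGraph.adj_comm]
    · rw [toGraph_adj_out φ G0 _ _ hu hw]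
      exact ((gkey_eq_iff _ _ _).1 h u w hu hw).symm

section back

variable (φ : Fin 3 ↪ Fin n) (G0 : SimpleGraph (Fin n)) (e0 : ℕ) (z : Mat 3 n)

theorem toGraph_adj12 : (toGraph φ G0 e0 z).Adj (φ 1) (φ 2) ↔ e0 ≠ 0 ∧ φ 0 ∉ z 0 := by
  rw [toGraph_adj_phi_phi]
  have h := intl_succ φ e0 z 0
  rw [fin3_add.1, fin3_add.2.1] at h
  exact h

theorem toGraph_adj20 : (toGraph φ G0 e0 z).Adj (φ 2) (φ 0) ↔ e0 ≠ 0 ∧ φ 0 ∉ z 1 := by
  rw [toGraph_adj_phi_phi]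
  have h := intl_succ φ e0 z 1
  rw [fin3_add.2.2.1, fin3_add.2.2.2.1] at h
  exact h

theorem toGraph_adj01 : (toGraph φ G0 e0 z).Adj (φ 0) (φ 1) ↔ e0 ≠ 0 ∧ φ 0 ∉ z 2 := by
  rw [toGraph_adj_phi_phi]
  have h := intl_succ φ e0 z 2
  rw [fin3_add.2.2.2.2.1, fin3_add.2.2.2.2.2] at h
  exact h

theorem card_virtual :
    (univ.filter (fun a : Fin 3 => φ 0 ∈ z a)).card
      = (if φ 0 ∈ z 0 then 1 else 0) + (if φ 0 ∈ z 1 then 1 else 0)
        + (if φ 0 ∈ z 2 then 1 else 0) := by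
  rw [Finset.card_filter, Fin.sum_univ_three]

variable (hcnt : (univ.filter (fun a : Fin 3 => φ 0 ∈ z a)).card + 3 * (e0 - 1) = 2 * e0)

include hcnt

/-- the virtual members of the graph of a matrix -/
theorem vmem_toGraph (a : Fin 3) : vmem φ (toGraph φ G0 e0 z) a ↔ φ 0 ∈ z a := by
  have h12 := toGraph_adj12 φ G0 e0 z
  have h20 := toGraph_adj20 φ G0 e0 z
  have h01 := toGraph_adj01 φ G0 e0 z
  have h21 : (toGraph φ G0 e0 z).Adj (φ 2) (φ 1) ↔ e0 ≠ 0 ∧ φ 0 ∉ z 0 := by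
    rw [SimpleGraph.adj_comm]; exact h12
  have h02 : (toGraph φ G0 e0 z).Adj (φ 0) (φ 2) ↔ e0 ≠ 0 ∧ φ 0 ∉ z 1 := by
    rw [SimpleGraph.adj_comm]; exact h20
  have h10 : (toGraph φ G0 e0 z).Adj (φ 1) (φ 0) ↔ e0 ≠ 0 ∧ φ 0 ∉ z 2 := by
    rw [SimpleGraph.adj_comm]; exact h01
  rw [card_virtual] at hcnt
  obtain ⟨e1, e2, e3, e4, e5, e6⟩ := fin3_add
  revert a
  apply fin3_forall
  · unfold vmem
    simp only [e1, e2, h01, h02, h12]
    by_cases v0 : φ 0 ∈ z 0 <;> by_cases v1 : φ 0 ∈ z 1 <;> by_cases v2 : φ 0 ∈ z 2 <;>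
      simp [v0, v1, v2] at hcnt ⊢ <;> omega
  · unfold vmem
    simp only [e3, e4, h12, h10, h20]
    by_cases v0 : φ 0 ∈ z 0 <;> by_cases v1 : φ 0 ∈ z 1 <;> by_cases v2 : φ 0 ∈ z 2 <;>
      simp [v0, v1, v2] at hcnt ⊢ <;> omega
  · unfold vmem
    simp only [e5, e6, h20, h21, h01]
    by_cases v0 : φ 0 ∈ z 0 <;> by_cases v1 : φ 0 ∈ z 1 <;> by_cases v2 : φ 0 ∈ z 2 <;>
      simp [v0, v1, v2] at hcnt ⊢ <;> omega

/-- the number of internal edges of the graph of a matrix -/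
theorem ecount_toGraph : ecount φ (toGraph φ G0 e0 z) = e0 := by
  have h12 := toGraph_adj12 φ G0 e0 z
  have h20 := toGraph_adj20 φ G0 e0 z
  have h01 := toGraph_adj01 φ G0 e0 z
  have h02 : (toGraph φ G0 e0 z).Adj (φ 0) (φ 2) ↔ e0 ≠ 0 ∧ φ 0 ∉ z 1 := by
    rw [SimpleGraph.adj_comm]; exact h20
  rw [card_virtual] at hcnt
  unfold ecount
  simp only [h01, h02, h12]
  by_cases v0 : φ 0 ∈ z 0 <;> by_cases v1 : φ 0 ∈ z 1 <;> by_cases v2 : φ 0 ∈ z 2 <;>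
    by_cases he : e0 = 0 <;> simp [v0, v1, v2, he] at hcnt ⊢ <;> omega

/-- Round trip 2: the matrix of the graph of a matrix. -/
theorem toMat_toGraph (hz1 : ∀ a b : Fin 3, b ≠ 0 → φ b ∉ z a) :
    toMat φ (toGraph φ G0 e0 z) = z := by
  funext a
  ext o
  by_cases ho : o ∈ TT φ
  · obtain ⟨b, rfl⟩ := (mem_TT φ o).1 ho
    by_cases hb : b = 0
    · subst hb
      rw [phi0_mem_toMat, vmem_toGraph φ G0 e0 z hcnt]
    · constructor
      · intro h
        exact absurd h (phi_not_mem_toMat φ _ a b hb)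
      · intro h
        exact absurd h (hz1 a b hb)
  · rw [mem_toMat_of_not_mem φ _ a ho, toGraph_adj_phi_out φ G0 e0 z a ho]

end back

end Vale.Agent.Lib.P335.H75
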