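import Mathlib
import Vale.Agent.Lib.P335.helper45.Transfer
import Vale.Agent.Lib.P335.helper75.TripleRound

/-!
Graph triples for P335, part 5: every class of graphs with the same edges outside a vertex
triple is the injective image of a three-row margin system, and removing a vertex pair of the
triple corresponds to keeping one row.
-/

namespace Vale.Agent.Lib.P335.H75

open Finset
open scoped Classical
open Vale.Agent.Lib.P335 Vale.Agent.Lib.P335.Bip

variable {n : ℕ} {d : Fin n → ℕ}

/-- the row margins of the class of `G0` -/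
noncomputable def rowM (φ : Fin 3 ↪ Fin n) (G0 : Omega n d) : Fin 3 → ℕ :=
  fun a => (toMat φ G0.1 a).card

/-- the column margins of the class of `G0` -/
noncomputable def colM (φ : Fin 3 ↪ Fin n) (G0 : Omega n d) : Fin n → ℕ :=
  fun j => colSum (toMat φ G0.1) j

section iota

variable (φ : Fin 3 ↪ Fin n) (G0 : Omega n d)

theorem om_hz1 (z : Om 3 n (rowM φ G0) (colM φ G0)) (a b : Fin 3) (hb : b ≠ 0) :
    φ b ∉ z.1 a := by
  have h := z.2.2 (φ b)
  unfold colM at h
  rw [colSum_toMat_phi φ G0.1 b hb] at h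
  unfold colSum at h
  rw [Finset.card_eq_zero, Finset.filter_eq_empty_iff] at h
  exact h (Finset.mem_univ a)

theorem om_hcnt (z : Om 3 n (rowM φ G0) (colM φ G0)) :
    (univ.filter (fun a : Fin 3 => φ 0 ∈ z.1 a)).card + 3 * (ecount φ G0.1 - 1)
      = 2 * ecount φ G0.1 := by
  have h := z.2.2 (φ 0)
  unfold colM at h
  rw [colSum_toMat_phi0 φ G0.1] at h
  unfold colSum at h
  rw [h]
  exact vcount_add φ G0.1

theorem toMat_toGraph_om (z : Om 3 n (rowM φ G0) (colM φ G0)) :
    toMat φ (toGraph φ G0.1 (ecount φ G0.1) z.1) = z.1 :=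
  toMat_toGraph φ G0.1 (ecount φ G0.1) z.1 (om_hcnt φ G0 z) (om_hz1 φ G0 z)

theorem degree_toGraph_om (z : Om 3 n (rowM φ G0) (colM φ G0)) (v : Fin n) :
    (toGraph φ G0.1 (ecount φ G0.1) z.1).degree v = d v := by
  have hM := toMat_toGraph_om φ G0 z
  have hE := ecount_toGraph φ G0.1 (ecount φ G0.1) z.1 (om_hcnt φ G0 z)
  by_cases hv : v ∈ TT φ
  · obtain ⟨a, rfl⟩ := (mem_TT φ v).1 hv
    have h1 := card_toMat_add φ (toGraph φ G0.1 (ecount φ G0.1) z.1) a
    have h2 := card_toMat_add φ G0.1 a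
    rw [hM, hE] at h1
    rw [G0.2 (φ a)] at h2
    have h3 : (z.1 a).card = (toMat φ G0.1 a).card := z.2.1 a
    omega
  · have h1 := degree_out φ (toGraph φ G0.1 (ecount φ G0.1) z.1) hv
    have h2 := degree_out φ G0.1 hv
    rw [hM] at h1
    rw [G0.2 v] at h2
    have h3 : colSum z.1 v = colSum (toMat φ G0.1) v := z.2.2 v
    have e : univ.filter (fun w => w ∉ TT φ ∧ (toGraph φ G0.1 (ecount φ G0.1) z.1).Adj v w)
        = univ.filter (fun w => w ∉ TT φ ∧ G0.1.Adj v w) := by
      ext w
      simp only [Finset.mem_filter, Finset.mem_univ, true_and]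
      constructor
      · rintro ⟨hw, hadj⟩
        exact ⟨hw, (toGraph_adj_out φ G0.1 _ z.1 hv hw).1 hadj⟩
      · rintro ⟨hw, hadj⟩
        exact ⟨hw, (toGraph_adj_out φ G0.1 _ z.1 hv hw).2 hadj⟩
    rw [e] at h1
    omega

/-- The map from the three-row margin system onto the class of `G0`. -/
noncomputable def iota (z : Om 3 n (rowM φ G0) (colM φ G0)) : Omega n d :=
  ⟨toGraph φ G0.1 (ecount φ G0.1) z.1, degree_toGraph_om φ G0 z⟩

theorem toMat_iota (z : Om 3 n (rowM φ G0) (colM φ G0)) : toMat φ (iota φ G0 z).1 = z.1 :=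
  toMat_toGraph_om φ G0 z

theorem iota_injective : Function.Injective (iota φ G0) := by
  intro z z' h
  apply Subtype.ext
  rw [← toMat_iota φ G0 z, ← toMat_iota φ G0 z', h]

theorem gkey_iota (z : Om 3 n (rowM φ G0) (colM φ G0)) :
    gkey (TT φ) (iota φ G0 z).1 = gkey (TT φ) G0.1 :=
  gkey_toGraph φ G0.1 _ z.1

theorem exists_iota_eq (G : Omega n d) (h : gkey (TT φ) G.1 = gkey (TT φ) G0.1) :
    ∃ z, iota φ G0 z = G := by
  refine ⟨⟨toMat φ G.1, fun a => card_toMat_eq_of_class φ G G0 h a,
    fun j => colSum_toMat_eq_of_class φ G G0 h j⟩, ?_⟩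
  apply Subtype.ext
  show toGraph φ G0.1 (ecount φ G0.1) (toMat φ G.1) = G.1
  rw [← ecount_eq_of_class φ G G0 h]
  exact toGraph_toMat φ G.1 G0.1 h

theorem not_mem_pair (l : Fin 3) (v : Fin n) :
    v ∉ (univ.erase l).map φ ↔ (v ∉ TT φ ∨ v = φ l) := by
  rw [Finset.mem_map, mem_TT]
  constructor
  · intro h
    by_cases hv : ∃ a, φ a = v
    · obtain ⟨a, rfl⟩ := hv
      right
      by_contra hne
      apply h
      refine ⟨a, ?_, rfl⟩
      rw [Finset.mem_erase]
      exact ⟨fun hal => hne (hal ▸ rfl), Finset.mem_univ _⟩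
    · exact Or.inl hv
  · rintro (h | rfl)
    · rintro ⟨a, -, ha⟩
      exact h ⟨a, ha⟩
    · rintro ⟨a, ha, hal⟩
      rw [Finset.mem_erase] at ha
      exact ha.1 (φ.injective hal)

theorem pair_subset (l : Fin 3) : (univ.erase l).map φ ⊆ TT φ := by
  intro v hv
  by_contra h
  exact (not_mem_pair φ l v).2 (Or.inl h) hv

/-- Removing the two vertices of the triple other than `φ l` corresponds to keeping row `l`. -/
theorem gkey_iota_row (l : Fin 3) (z z' : Om 3 n (rowM φ G0) (colM φ G0)) :
    gkey ((univ.erase l).map φ) (iota φ G0 z).1 = gkey ((univ.erase l).map φ) (iota φ G0 z').1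
      ↔ z.1 l = z'.1 l := by
  rw [gkey_eq_iff]
  constructor
  · intro h
    have hout : ∀ o, o ∉ TT φ → (o ∈ z.1 l ↔ o ∈ z'.1 l) := by
      intro o ho
      have h1 := h (φ l) o ((not_mem_pair φ l _).2 (Or.inr rfl))
        ((not_mem_pair φ l _).2 (Or.inl ho))
      have h2 := toGraph_adj_phi_out φ G0.1 (ecount φ G0.1) z.1 l ho
      have h3 := toGraph_adj_phi_out φ G0.1 (ecount φ G0.1) z'.1 l ho
      exact h2.symm.trans (h1.trans h3)
    have herase : (z.1 l).erase (φ 0) = (z'.1 l).erase (φ 0) := by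
      ext o
      rw [Finset.mem_erase, Finset.mem_erase]
      by_cases ho : o ∈ TT φ
      · obtain ⟨b, rfl⟩ := (mem_TT φ o).1 ho
        by_cases hb : b = 0
        · subst hb
          simp
        · have h1 := om_hz1 φ G0 z l b hb
          have h2 := om_hz1 φ G0 z' l b hb
          simp [h1, h2]
      · rw [hout o ho]
    have hcard : (z.1 l).card = (z'.1 l).card := (z.2.1 l).trans (z'.2.1 l).symm
    have hv : φ 0 ∈ z.1 l ↔ φ 0 ∈ z'.1 l := by
      have hc := congrArg Finset.card herase
      constructor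
      · intro h0
        by_contra h0'
        rw [Finset.card_erase_of_mem h0, Finset.erase_eq_of_notMem h0'] at hc
        have := Finset.card_pos.2 ⟨_, h0⟩
        omega
      · intro h0'
        by_contra h0
        rw [Finset.card_erase_of_mem h0', Finset.erase_eq_of_notMem h0] at hc
        have := Finset.card_pos.2 ⟨_, h0'⟩
        omega
    ext o
    by_cases ho : o = φ 0
    · rw [ho]
      exact hv
    · have h1 : o ∈ (z.1 l).erase (φ 0) ↔ o ∈ (z'.1 l).erase (φ 0) := by rw [herase]
      rw [Finset.mem_erase, Finset.mem_erase] at h1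
      constructor
      · intro h2
        exact (h1.1 ⟨ho, h2⟩).2
      · intro h2
        exact (h1.2 ⟨ho, h2⟩).2
  · intro h u w hu hw
    rw [not_mem_pair] at hu hw
    show (toGraph φ G0.1 (ecount φ G0.1) z.1).Adj u w
      ↔ (toGraph φ G0.1 (ecount φ G0.1) z'.1).Adj u w
    rcases hu with hu | rfl
    · rcases hw with hw | rfl
      · rw [toGraph_adj_out φ G0.1 _ _ hu hw, toGraph_adj_out φ G0.1 _ _ hu hw]
      · rw [SimpleGraph.adj_comm, toGraph_adj_phi_out φ G0.1 _ _ l hu,
          SimpleGraph.adj_comm, toGraph_adj_phi_out φ G0.1 _ _ l hu, h]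
    · rcases hw with hw | rfl
      · rw [toGraph_adj_phi_out φ G0.1 _ _ l hw, toGraph_adj_phi_out φ G0.1 _ _ l hw, h]
      · constructor
        · intro h'
          exact absurd h' (SimpleGraph.irrefl _)
        · intro h'
          exact absurd h' (SimpleGraph.irrefl _)

theorem mask_row (l : Fin 3) (z z' : Mat 3 n) :
    mask (univ.erase l) z = mask (univ.erase l) z' ↔ z l = z' l := by
  rw [H45.mask_eq_iff]
  constructor
  · intro h
    exact h l (Finset.notMem_erase l _)
  · intro h i hi
    have : i = l := by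
      by_contra hne
      exact hi (Finset.mem_erase.2 ⟨hne, Finset.mem_univ _⟩)
    rw [this]
    exact h

end iota

end Vale.Agent.Lib.P335.H75
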