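import Mathlib
import Vale.Agent.Lib.P335.helper75.TripleIota

/-!
Graph triples for P335, part 6: the graph triple lemma.

For a vertex triple `T` of a degree class `Omega n d`, the class of graphs with the same edges
outside `T` is a three-row margin system (with one virtual column), so the three-row
inequality of the bipartite case transfers: the sum over the three pairs `p ⊆ T` of
`⟨f, E[f | G - p]⟩` is at most `2⟨f, f⟩ + ⟨f, E[f | G - T]⟩`.
-/

namespace Vale.Agent.Lib.P335.H75

open Finset
open scoped Classical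
open Vale.Agent.Lib.P335 Vale.Agent.Lib.P335.Bip

variable {n : ℕ} {d : Fin n → ℕ}

theorem powersetCard_two_fin3 :
    (univ : Finset (Fin 3)).powersetCard 2 = univ.image (fun l : Fin 3 => univ.erase l) := by
  decide

theorem sum_pairs_fin3 (F : Finset (Fin 3) → ℝ) :
    ∑ q ∈ (univ : Finset (Fin 3)).powersetCard 2, F q = ∑ l : Fin 3, F (univ.erase l) := by
  rw [powersetCard_two_fin3, Finset.sum_image]
  intro a _ b _ h
  by_contra hne
  have h1 : a ∈ (univ : Finset (Fin 3)).erase b := Finset.mem_erase.2 ⟨hne, Finset.mem_univ _⟩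
  have h' : (univ : Finset (Fin 3)).erase a = univ.erase b := h
  rw [← h'] at h1
  exact Finset.notMem_erase a _ h1

/-- The graph triple lemma for an embedded triple, with the pairs indexed by the opposite
vertex. -/
theorem graph_triple_phi
    (h3 : ∀ (N : ℕ) (r : Fin 3 → ℕ) (c : Fin N → ℕ) (g : Om 3 N r c → ℝ),
      ∑ q ∈ (univ : Finset (Fin 3)).powersetCard 2, ip g (R q g) ≤ 2 * ip g g + ip g (R univ g))
    (φ : Fin 3 ↪ Fin n) (f : Omega n d → ℝ) :
    ∑ l : Fin 3, ip f (cexp (fun G : Omega n d => gkey ((univ.erase l).map φ) G.1) f)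
      ≤ 2 * ip f f + ip f (cexp (fun G : Omega n d => gkey (TT φ) G.1) f) := by
  have hL : ∑ l : Fin 3, ip f (cexp (fun G : Omega n d => gkey ((univ.erase l).map φ) G.1) f)
      = ∑ G, ∑ l : Fin 3,
          f G * cexp (fun G : Omega n d => gkey ((univ.erase l).map φ) G.1) f G := by
    unfold ip
    rw [Finset.sum_comm]
  have hR : 2 * ip f f + ip f (cexp (fun G : Omega n d => gkey (TT φ) G.1) f)
      = ∑ G, (2 * (f G * f G) + f G * cexp (fun G : Omega n d => gkey (TT φ) G.1) f G) := by
    unfold ip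
    rw [Finset.sum_add_distrib, Finset.mul_sum]
  rw [hL, hR]
  apply sum_le_sum_of_fibres (fun G : Omega n d => gkey (TT φ) G.1)
  intro G0
  have hclass : univ.filter (fun G : Omega n d => gkey (TT φ) G.1 = gkey (TT φ) G0.1)
      = univ.image (iota φ G0) := by
    ext G
    simp only [Finset.mem_filter, Finset.mem_univ, true_and, Finset.mem_image]
    constructor
    · intro h
      exact exists_iota_eq φ G0 G h
    · rintro ⟨z, rfl⟩
      exact gkey_iota φ G0 z
  rw [hclass, Finset.sum_image (fun a _ b _ h => iota_injective φ G0 h),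
    Finset.sum_image (fun a _ b _ h => iota_injective φ G0 h)]
  obtain ⟨g, hg⟩ : ∃ g : Om 3 n (rowM φ G0) (colM φ G0) → ℝ,
      ∀ z, g z = f (iota φ G0 z) := ⟨_, fun _ => rfl⟩
  have hgf : (fun z' => f (iota φ G0 z')) = g := funext (fun z => (hg z).symm)
  have key := h3 n (rowM φ G0) (colM φ G0) g
  rw [sum_pairs_fin3] at key
  unfold ip at key
  rw [Finset.sum_comm] at key
  have hsurT : ∀ (z : Om 3 n (rowM φ G0) (colM φ G0)) (y : Omega n d),
      gkey (TT φ) y.1 = gkey (TT φ) (iota φ G0 z).1 → ∃ z', iota φ G0 z' = y := by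
    intro z y hy
    exact exists_iota_eq φ G0 y (hy.trans (gkey_iota φ G0 z))
  have e1 : ∀ (l : Fin 3) (z : Om 3 n (rowM φ G0) (colM φ G0)),
      cexp (fun G : Omega n d => gkey ((univ.erase l).map φ) G.1) f (iota φ G0 z)
        = R (univ.erase l) g z := by
    intro l z
    unfold R
    rw [← hgf]
    apply cexp_transfer (fun G : Omega n d => gkey ((univ.erase l).map φ) G.1)
      (fun x : Om 3 n (rowM φ G0) (colM φ G0) => mask (univ.erase l) x.1) (iota φ G0)
      (iota_injective φ G0)
    · intro z y hy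
      exact hsurT z y (gkey_mono (pair_subset φ l) hy)
    · intro z z'
      rw [gkey_iota_row, mask_row]
  have e2 : ∀ (z : Om 3 n (rowM φ G0) (colM φ G0)),
      cexp (fun G : Omega n d => gkey (TT φ) G.1) f (iota φ G0 z) = R univ g z := by
    intro z
    unfold R
    rw [← hgf]
    apply cexp_transfer (fun G : Omega n d => gkey (TT φ) G.1)
      (fun x : Om 3 n (rowM φ G0) (colM φ G0) => mask univ x.1) (iota φ G0)
      (iota_injective φ G0)
    · exact hsurT
    · intro z z'
      constructor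
      · intro _
        funext i
        simp [mask]
      · intro _
        rw [gkey_iota, gkey_iota]
  simp only [e1, e2, ← hg]
  rw [Finset.sum_add_distrib, ← Finset.mul_sum]
  exact key

/-- **Graph triple lemma** (for the key `gkey`). -/
theorem graph_triple_gkey
    (h3 : ∀ (N : ℕ) (r : Fin 3 → ℕ) (c : Fin N → ℕ) (g : Om 3 N r c → ℝ),
      ∑ q ∈ (univ : Finset (Fin 3)).powersetCard 2, ip g (R q g) ≤ 2 * ip g g + ip g (R univ g))
    (T : Finset (Fin n)) (hT : T.card = 3) (f : Omega n d → ℝ) :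
    ∑ p ∈ T.powersetCard 2, ip f (cexp (fun G : Omega n d => gkey p G.1) f)
      ≤ 2 * ip f f + ip f (cexp (fun G : Omega n d => gkey T G.1) f) := by
  obtain ⟨φ, rfl⟩ : ∃ φ : Fin 3 ↪ Fin n, (univ : Finset (Fin 3)).map φ = T :=
    ⟨(T.orderEmbOfFin hT).toEmbedding, map_orderEmbOfFin_univ T hT⟩
  rw [powersetCard_map, Finset.sum_map, sum_pairs_fin3]
  exact graph_triple_phi h3 φ f

/-- **Graph triple lemma**, for any family of keys `κ S` whose fibres are the classes of
graphs with the same edges among the vertices outside `S`: for a vertex triple `T`,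
`∑_{p ⊆ T, |p| = 2} ⟨f, E[f | κ p]⟩ ≤ 2⟨f, f⟩ + ⟨f, E[f | κ T]⟩`, given the three-row
inequality `h3` for margin matrices. -/
theorem graph_triple
    (h3 : ∀ (N : ℕ) (r : Fin 3 → ℕ) (c : Fin N → ℕ) (g : Om 3 N r c → ℝ),
      ∑ q ∈ (univ : Finset (Fin 3)).powersetCard 2, ip g (R q g) ≤ 2 * ip g g + ip g (R univ g))
    {K : Type*} [DecidableEq K] (κ : Finset (Fin n) → Omega n d → K)
    (hκ : ∀ (S : Finset (Fin n)) (G G' : Omega n d),
      κ S G = κ S G' ↔ ∀ a b, a ∉ S → b ∉ S → (G.1.Adj a b ↔ G'.1.Adj a b))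
    (T : Finset (Fin n)) (hT : T.card = 3) (f : Omega n d → ℝ) :
    ∑ p ∈ T.powersetCard 2, ip f (cexp (κ p) f) ≤ 2 * ip f f + ip f (cexp (κ T) f) := by
  have hk : ∀ S, cexp (κ S) = cexp (fun G : Omega n d => gkey S G.1) := by
    intro S
    apply cexp_congr_ker
    intro x y
    rw [hκ, gkey_eq_iff]
  simp only [hk]
  exact graph_triple_gkey h3 T hT f

end Vale.Agent.Lib.P335.H75
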