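import Mathlib
import Vale.Agent.Lib.P335.helper72.GraphDefs
import Vale.Agent.Lib.P335.helper75.GraphTriple

/-!
The graph triple lemma for P335 in terms of the resampling operators `Gr.GR`
(conditional expectation given `G - S`).
-/

namespace Vale.Agent.Lib.P335.H75

open Finset
open scoped Classical
open Vale.Agent.Lib.P335 Vale.Agent.Lib.P335.Bip

/-- **Graph triple lemma** for the operators `Gr.GR S = E[· | G - S]`: for a vertex triple `T`,
`∑_{p ⊆ T, |p| = 2} ⟨f, GR p f⟩ ≤ 2⟨f, f⟩ + ⟨f, GR T f⟩`, given the three-row inequality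
`h3` for margin matrices. -/
theorem graph_triple_GR
    (h3 : ∀ (N : ℕ) (r : Fin 3 → ℕ) (c : Fin N → ℕ) (g : Om 3 N r c → ℝ),
      ∑ q ∈ (univ : Finset (Fin 3)).powersetCard 2, ip g (R q g) ≤ 2 * ip g g + ip g (R univ g))
    {n : ℕ} {d : Fin n → ℕ} (T : Finset (Fin n)) (hT : T.card = 3) (f : Omega n d → ℝ) :
    ∑ p ∈ T.powersetCard 2, ip f (Gr.GR p f) ≤ 2 * ip f f + ip f (Gr.GR T f) :=
  graph_triple h3 (fun S (G : Omega n d) => Gr.gmask S G.1)
    (fun S G G' => Gr.gmask_eq_iff S G.1 G'.1) T hT f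

end Vale.Agent.Lib.P335.H75
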