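import Mathlib
import Vale.Agent.Lib.P335.helper26.BipMain
import Vale.Agent.Lib.P335.helper75.GraphTripleGR

/-!
The unconditional graph triple lemma for P335: the three-row inequality for margin matrices
(`Bip.threeRow`) transferred to every vertex triple of a degree class.
-/

namespace Vale.Agent.Lib.P335.H75

open Finset
open scoped Classical
open Vale.Agent.Lib.P335 Vale.Agent.Lib.P335.Bip

/-- **Graph triple lemma**, unconditional, for any family of keys `κ S` whose fibres are the
classes of graphs with the same edges among the vertices outside `S`. -/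
theorem graph_triple_uncond {n : ℕ} {d : Fin n → ℕ}
    {K : Type*} [DecidableEq K] (κ : Finset (Fin n) → Omega n d → K)
    (hκ : ∀ (S : Finset (Fin n)) (G G' : Omega n d),
      κ S G = κ S G' ↔ ∀ a b, a ∉ S → b ∉ S → (G.1.Adj a b ↔ G'.1.Adj a b))
    (T : Finset (Fin n)) (hT : T.card = 3) (f : Omega n d → ℝ) :
    ∑ p ∈ T.powersetCard 2, ip f (cexp (κ p) f) ≤ 2 * ip f f + ip f (cexp (κ T) f) :=
  graph_triple threeRow κ hκ T hT f

/-- **Graph triple lemma**, unconditional, for the resampling operators
`Gr.GR S = E[· | G - S]` on a degree class `Omega n d`: for every vertex triple `T`,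
`∑_{p ⊆ T, |p| = 2} ⟨f, GR p f⟩ ≤ 2⟨f, f⟩ + ⟨f, GR T f⟩`. -/
theorem GR_triple {n : ℕ} {d : Fin n → ℕ} (T : Finset (Fin n)) (hT : T.card = 3)
    (f : Omega n d → ℝ) :
    ∑ p ∈ T.powersetCard 2, ip f (Gr.GR p f) ≤ 2 * ip f f + ip f (Gr.GR T f) :=
  graph_triple_GR threeRow T hT f

end Vale.Agent.Lib.P335.H75
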